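import Crest.Agent.X262.NumPar.Main
import Crest.Agent.X262.EndsZ.Van

/-! # Row 262, road B, NUM-PAR (helper92): `Ends.SqStmt` unconditionally -/

namespace Crest.Agent.X262.NumPar

/-- **SQ** -/
theorem sqStmt : Ends.SqStmt := EndsZ.sq_of parStmt

end Crest.Agent.X262.NumPar
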