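import Crest.Agent.X262.Ends.Pl
import Crest.Agent.X262.EndsZ.Main
import Crest.Agent.X262.Vb37.Mob

/-!
# Row 262, road B, NUM-PAR (helper92): the points of the swept variety

* `inj_of_trdeg` : a surjection of domains which keeps the transcendence degree is injective;
* `exists_hom`   : the field homomorphism attached to a specialisation of the same dimension;
* `rel_ext`      : relations with coefficients in the base field specialise;
* `par_of_rel`   : a point with all the relations of the generic point of a line lies on it;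
* `parStmt`      : `Ends.ParStmt`.
-/

set_option autoImplicit false
set_option linter.unusedSectionVars false
set_option linter.style.haveILetI false

noncomputable section

namespace Crest.Agent.X262.NumPar

open Polynomial Crest.Agent.X277 Crest.Agent.X277.BD Crest.Agent.X262.Vb Crest.Agent.X262.Hb
  Crest.Agent.X262.Ends Crest.Agent.X262.Vb37
open Crest.Agent.X262.Bub96 (hv)
open IntermediateField (adjoin)
open Set (range)

variable {K E : Type} [Field K] [Algebra ℂ K] [Field E] [Algebra ℂ E]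

/-- descent of the evaluation at `w` to the ring generated by `z` -/
theorem exists_desc {σ : Type} {z : σ → K} {w : σ → E}
    (h : ∀ P : MvPolynomial σ ℂ, MvPolynomial.aeval z P = 0 → MvPolynomial.aeval w P = 0) :
    ∃ ψ : (MvPolynomial.aeval (R := ℂ) z).range →ₐ[ℂ] (MvPolynomial.aeval (R := ℂ) w).range,
      Function.Surjective ψ ∧ ∀ P, ψ ((MvPolynomial.aeval z).rangeRestrict P) =
        (MvPolynomial.aeval w).rangeRestrict P :=
  ⟨_, AlgHom.liftOfSurjective_surjective _ (MvPolynomial.aeval z).rangeRestrict_surjective _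
    (fun P hP => Subtype.ext (h P (congrArg Subtype.val hP)))
    (MvPolynomial.aeval w).rangeRestrict_surjective, AlgHom.liftOfSurjective_apply _ _ _ _⟩

/-- a surjection of domains which keeps the transcendence degree is injective -/
theorem inj_of_trdeg {A B : Type} [CommRing A] [IsDomain A] [Algebra ℂ A] [CommRing B] [IsDomain B]
    [Algebra ℂ B] (ψ : A →ₐ[ℂ] B) (h : Function.Surjective ψ)
    (hA : Algebra.trdeg ℂ A < Cardinal.aleph0) (hB : Algebra.trdeg ℂ A ≤ Algebra.trdeg ℂ B) :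
    Function.Injective ψ := by
  obtain ⟨t, h2⟩ := exists_isTranscendenceBasis ℂ B
  choose x hx using fun i : t => h i
  have h3 : AlgebraicIndependent ℂ (ψ ∘ x) := by
    convert h2.1
    exact _root_.funext hx
  have h4 := h3.of_comp.isTranscendenceBasis_of_trdeg_le hA (hB.trans h2.cardinalMk_eq_trdeg.ge)
  refine (injective_iff_map_eq_zero _).2 fun a ha => by_contra fun h0 => ?_
  obtain ⟨⟨b, hb⟩, h5, h6⟩ := (Submodule.ne_bot_iff _).1 (Ideal.comap_ne_bot_of_algebraic_mem
    (I := RingHom.ker ψ) h0 ha (h4.isAlgebraic.isAlgebraic a))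
  rw [Algebra.adjoin_range_eq_range_aeval] at hb
  obtain ⟨p, rfl⟩ := hb
  have h7 : MvPolynomial.aeval (ψ ∘ x) p = 0 :=
    (MvPolynomial.comp_aeval_apply x ψ p).symm.trans h5
  exact h6 (Subtype.ext (by simp [algebraicIndependent_iff.1 h3 p h7]))

open scoped IntermediateField.algebraAdjoinAdjoin in
theorem trdeg_adjoin {σ : Type} (w : σ → E) : Algebra.trdeg ℂ (adjoin ℂ (range w)) =
    Algebra.trdeg ℂ (MvPolynomial.aeval (R := ℂ) w).range := by
  have : FaithfulSMul ℂ (Algebra.adjoin ℂ (range w)) :=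
    (faithfulSMul_iff_algebraMap_injective _ _).2 (algebraMap ℂ _).injective
  rw [← trdeg_add_eq ℂ (Algebra.adjoin ℂ (range w)), trdeg_eq_zero (R := Algebra.adjoin ℂ _),
    add_zero, Algebra.adjoin_range_eq_range_aeval]

/-- the field homomorphism attached to a specialisation which keeps the dimension -/
theorem exists_hom {σ : Type} {z : σ → K} {w : σ → E}
    (h : ∀ P : MvPolynomial σ ℂ, MvPolynomial.aeval z P = 0 → MvPolynomial.aeval w P = 0)
    (hz : adjoin ℂ (range z) = ⊤) (h1 : Algebra.trdeg ℂ K < Cardinal.aleph0)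
    (h2 : Algebra.trdeg ℂ K ≤ Algebra.trdeg ℂ (adjoin ℂ (range w))) :
    ∃ β : K →ₐ[ℂ] E, ∀ t, β (z t) = w t := by
  obtain ⟨ψ, h3, h4⟩ := exists_desc h
  have h5 := trdeg_le_of_injective (MvPolynomial.aeval (R := ℂ) z).range.val Subtype.val_injective
  have h6 := Subtype.val_injective.comp
    (inj_of_trdeg ψ h3 (h5.trans_lt h1) (h5.trans (h2.trans_eq (trdeg_adjoin w))))
  have : IsFractionRing (MvPolynomial.aeval (R := ℂ) z).range K :=
    IsFractionRing.of_field _ _ fun x => by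
      obtain ⟨r, s, rfl⟩ := (IntermediateField.mem_adjoin_range_iff ℂ z x).1
        (hz ▸ IntermediateField.mem_top)
      exact ⟨⟨_, r, rfl⟩, ⟨_, s, rfl⟩, rfl⟩
  refine ⟨IsFractionRing.liftAlgHom (g := (Subalgebra.val _).comp ψ) h6, fun t => ?_⟩
  have h7 := congrArg Subtype.val (h4 (MvPolynomial.X t))
  have h8 : z t = algebraMap _ K ((MvPolynomial.aeval (R := ℂ) z).rangeRestrict
    (MvPolynomial.X t)) := (MvPolynomial.aeval_X z t).symm
  rw [h8, IsFractionRing.liftAlgHom_apply, IsFractionRing.lift_algebraMap]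
  exact h7.trans (MvPolynomial.aeval_X w t)

/-- relations with coefficients in the base field specialise -/
theorem rel_ext {L : Type} [Field L] [Algebra ℂ L] [Algebra K L] [Algebra K E] [IsScalarTower ℂ K L]
    [IsScalarTower ℂ K E] {σ τ : Type} (s : σ → τ) {z : σ → K} {W : τ → L} {w : τ → E}
    (hz : adjoin ℂ (range z) = ⊤) (h1 : ∀ t, W (s t) = algebraMap K L (z t))
    (h2 : ∀ t, w (s t) = algebraMap K E (z t))
    (h : ∀ P : MvPolynomial τ ℂ, MvPolynomial.aeval W P = 0 → MvPolynomial.aeval w P = 0)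
    (P : MvPolynomial τ K) (hP : MvPolynomial.aeval W P = 0) : MvPolynomial.aeval w P = 0 := by
  let u : τ → L × E := fun t => (W t, w t)
  let G := (MvPolynomial.aeval (R := ℂ) u).range
  have h3 : ∀ p : MvPolynomial σ ℂ, algebraMap K (L × E) (MvPolynomial.aeval z p) ∈ G := fun p =>
    ⟨MvPolynomial.rename s p, by
      rw [← MvPolynomial.aeval_algebraMap_apply]
      exact (MvPolynomial.aeval_rename s u p).trans (congrArg (MvPolynomial.aeval · p)
        (_root_.funext fun t => Prod.ext (h1 t) (h2 t)))⟩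
  have h4 : ∀ P : MvPolynomial τ K, ∃ b : K, b ≠ 0 ∧ algebraMap K (L × E) b ∈ G ∧
      algebraMap K (L × E) b * MvPolynomial.aeval u P ∈ G := fun P => by
    induction P using MvPolynomial.induction_on with
    | C c =>
      obtain ⟨r, s, rfl⟩ := (IntermediateField.mem_adjoin_range_iff ℂ z c).1
        (hz ▸ IntermediateField.mem_top)
      by_cases h0 : MvPolynomial.aeval z s = 0
      · exact ⟨1, one_ne_zero, map_one (algebraMap K (L × E)) ▸ one_mem G, by simp [h0]⟩
      · exact ⟨_, h0, h3 s, by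
          rw [MvPolynomial.aeval_C, ← map_mul, mul_div_cancel₀ _ h0]; exact h3 r⟩
    | add p p' hp hp' =>
      obtain ⟨b, h4, h5, h6⟩ := hp
      obtain ⟨b', h7, h8, h9⟩ := hp'
      refine ⟨b * b', mul_ne_zero h4 h7, by rw [map_mul]; exact mul_mem h5 h8, ?_⟩
      convert add_mem (mul_mem h8 h6) (mul_mem h5 h9) using 1
      rw [map_mul, map_add]
      ring
    | mul_X p t hp =>
      obtain ⟨b, h4, h5, h6⟩ := hp
      refine ⟨b, h4, h5, ?_⟩
      rw [map_mul, MvPolynomial.aeval_X, ← mul_assoc]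
      exact mul_mem h6 ⟨MvPolynomial.X t, MvPolynomial.aeval_X u t⟩
  obtain ⟨b, h5, -, q, h6⟩ := h4 P
  have h7 := congrArg (AlgHom.fst K L E) h6
  have h8 := congrArg (AlgHom.snd K L E) h6
  rw [map_mul, AlgHom.commutes, MvPolynomial.comp_aeval_apply] at h7 h8
  have h9 := h q (((MvPolynomial.comp_aeval_apply u (AlgHom.fst ℂ L E) q).symm.trans h7).trans
    (mul_eq_zero_of_right _ hP))
  exact (mul_eq_zero.1 (h8.symm.trans ((MvPolynomial.comp_aeval_apply u (AlgHom.snd ℂ L E) q).trans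
    h9))).resolve_left ((_root_.map_ne_zero _).2 h5)

variable {J : Type} [Fintype J] [DecidableEq J] {io : J → Type} [∀ j, Fintype (io j)]
  [∀ j, DecidableEq (io j)] {d ν : J → ℕ} {j₁ : J} {f : (j : J) → io j → K[X]}

theorem bas_eq {y : Pnt io E} {i : ∀ j, io j} (hi : ∀ j, ν j ≠ 0 → y j (i j) ≠ 0) :
    bas ν y = adjoin ℂ (range fun t : {v : Vr io // ν v.1 ≠ 0} =>
      y t.1.1 t.1.2 / y t.1.1 (i t.1.1)) := by
  refine le_antisymm (IntermediateField.adjoin_le_iff.2 ?_) (IntermediateField.adjoin.mono _ _ _ ?_)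
  · rintro _ ⟨j, s, s', hj, rfl⟩
    rw [← div_div_div_cancel_right₀ (hi j hj)]
    exact div_mem (IntermediateField.subset_adjoin _ _ ⟨⟨⟨j, s⟩, hj⟩, rfl⟩)
      (IntermediateField.subset_adjoin _ _ ⟨⟨⟨j, s'⟩, hj⟩, rfl⟩)
  · rintro _ ⟨t, rfl⟩
    exact ⟨_, _, _, t.2, rfl⟩

omit [Algebra ℂ K] in
/-- coprime linear forms span -/
theorem exists_span (hf : Cp d f) (h1 : d j₁ = 1) : ∃ (s s' : io j₁) (a b a' b' : K),
    C a * f j₁ s + C b * f j₁ s' = X ∧ C a' * f j₁ s + C b' * f j₁ s' = 1 := by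
  obtain ⟨s, hs⟩ := hf.2.1 j₁
  obtain ⟨s', hs'⟩ := cp_hv hf j₁ (some (-((f j₁ s).coeff 0 / (f j₁ s).coeff 1)))
  have h2 := fun s => eq_X_add_C_of_natDegree_le_one (h1 ▸ hf.1 j₁ s)
  rw [h1] at hs
  rw [hv, h2 s'] at hs'
  simp only [eval_add, eval_mul, eval_C, eval_X] at hs'
  obtain ⟨D, hD⟩ : ∃ D, D * ((f j₁ s).coeff 1 * (f j₁ s').coeff 0 -
      (f j₁ s').coeff 1 * (f j₁ s).coeff 0) = 1 :=
    ⟨_, inv_mul_cancel₀ fun h => hs' (by field_simp; linear_combination h)⟩
  have h3 := congrArg C hD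
  simp only [map_mul, map_sub, map_one] at h3
  refine ⟨s, s', D * (f j₁ s').coeff 0, -(D * (f j₁ s).coeff 0), -(D * (f j₁ s').coeff 1),
    D * (f j₁ s).coeff 1, ?_, ?_⟩ <;> simp only [map_mul, map_neg]
  · linear_combination X * h3 + C D * C ((f j₁ s').coeff 0) * h2 s -
      C D * C ((f j₁ s).coeff 0) * h2 s'
  · linear_combination h3 - C D * C ((f j₁ s').coeff 1) * h2 s +
      C D * C ((f j₁ s).coeff 1) * h2 s'

omit [Algebra ℂ K] [Algebra ℂ E] in
/-- a point with all the relations of the generic point of a line lies on the line -/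
theorem par_of_rel [Algebra K E] (hf : Cp d f) (h1 : d j₁ = 1) {i : ∀ j, io j}
    (h0 : ∀ j, f j (i j) ≠ 0) {w : Vr io → E}
    (h : ∀ P : MvPolynomial (Vr io) K, MvPolynomial.aeval (fun v : Vr io =>
      algebraMap K[X] (RatFunc K) (f v.1 v.2) / algebraMap K[X] (RatFunc K) (f v.1 (i v.1))) P = 0 →
      MvPolynomial.aeval w P = 0) :
    ∃ (t : Option E) (c : J → E), (∀ j, c j ≠ 0) ∧
      ∀ j s, w ⟨j, s⟩ = c j * hv (d j) ((f j s).map (algebraMap K E)) t := by
  obtain ⟨s, s', a, b, a', b', h2, h3⟩ := exists_span hf h1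
  have h0' : ∀ j, algebraMap K[X] (RatFunc K) (f j (i j)) ≠ 0 := fun j =>
    RatFunc.algebraMap_ne_zero (h0 j)
  set W : Vr io → RatFunc K := fun v =>
    algebraMap K[X] (RatFunc K) (f v.1 v.2) / algebraMap K[X] (RatFunc K) (f v.1 (i v.1))
  let l : K → K → MvPolynomial (Vr io) K := fun a b =>
    MvPolynomial.C a * MvPolynomial.X ⟨j₁, s⟩ + MvPolynomial.C b * MvPolynomial.X ⟨j₁, s'⟩
  let H : ℕ → K[X] → MvPolynomial (Vr io) K := fun n g =>
    ∑ m ∈ Finset.range (n + 1), MvPolynomial.C (g.coeff m) * l a b ^ m * l a' b' ^ (n - m)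
  have h4 : ∀ (R : Type) [Field R] [Algebra K R] (u : Vr io → R) n g,
      MvPolynomial.aeval u (H n g) = hev n (g.map (algebraMap K R))
        ![MvPolynomial.aeval u (l a b), MvPolynomial.aeval u (l a' b')] := fun R _ _ u n g => by
    simp [H, hev]
  have h5 : ∀ a b, MvPolynomial.aeval W (l a b) = (algebraMap K[X] (RatFunc K) (f j₁ (i j₁)))⁻¹ *
      algebraMap K[X] (RatFunc K) (C a * f j₁ s + C b * f j₁ s') := fun a b => by
    simp only [l, W, map_add, map_mul, MvPolynomial.aeval_C, MvPolynomial.aeval_X,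
      RatFunc.algebraMap_C, RatFunc.algebraMap_eq_C]
    ring
  have h6 : ∀ n g, g.natDegree ≤ n → MvPolynomial.aeval W (H n g) =
      (algebraMap K[X] (RatFunc K) (f j₁ (i j₁)))⁻¹ ^ n * algebraMap K[X] (RatFunc K) g :=
    fun n g hg => by
      rw [h4, h5, h5, h2, h3, ← RatFunc.aeval_X_left_eq_algebraMap g, aeval_def, eval₂_eq_eval_map,
        show eval _ _ = _ from (hev_hx (natDegree_map_le.trans hg) (some _)).symm, ← hev_smul]
      simp [hx]
  set p : Fin 2 → E := ![MvPolynomial.aeval w (l a b), MvPolynomial.aeval w (l a' b')]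
  have h7 : ∀ j s s', w ⟨j, s⟩ * hev (d j) ((f j s').map (algebraMap K E)) p =
      w ⟨j, s'⟩ * hev (d j) ((f j s).map (algebraMap K E)) p := fun j s s' => by
    have h7 := h (MvPolynomial.X ⟨j, s⟩ * H (d j) (f j s') -
      MvPolynomial.X ⟨j, s'⟩ * H (d j) (f j s)) (by
        simp only [map_sub, map_mul, MvPolynomial.aeval_X, h6 _ _ (hf.1 j _), W]
        ring)
    simpa only [map_sub, map_mul, MvPolynomial.aeval_X, h4, sub_eq_zero] using h7
  have h8 : ∀ j, w ⟨j, i j⟩ = 1 := fun j => by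
    have h8 := h (MvPolynomial.X ⟨j, i j⟩ - 1) (by simp [W, h0' j])
    rwa [map_sub, MvPolynomial.aeval_X, map_one, sub_eq_zero] at h8
  have h9 : p ≠ 0 := fun hp => by
    have h9 := h (H 1 (f j₁ (i j₁)) - 1) (by
      rw [map_sub, h6 _ _ (h1 ▸ hf.1 j₁ _), pow_one, inv_mul_cancel₀ (h0' _), map_one, sub_self])
    rw [map_sub, h4, map_one, sub_eq_zero] at h9
    have h10 := hev_smul 1 ((f j₁ (i j₁)).map (algebraMap K E)) 0 p
    rw [zero_smul, ← hp, pow_one, zero_mul] at h10
    exact one_ne_zero (h9.symm.trans h10)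
  choose m hm using fun j => cp_hev (hf.map (algebraMap K E)) j h9
  obtain ⟨u, t, hu, ht⟩ := exists_hx h9
  refine ⟨t, fun j => w ⟨j, m j⟩ / hev (d j) ((f j (m j)).map (algebraMap K E)) p * u ^ d j,
    fun j => mul_ne_zero (div_ne_zero (fun h10 => hm j ?_) (hm j)) (pow_ne_zero _ hu),
    fun j s => ?_⟩
  · simpa [h8, h10] using h7 j (i j) (m j)
  · rw [mul_assoc, ← hev_hx (natDegree_map_le.trans (hf.1 j s)), ← hev_smul, ← ht,
      div_mul_eq_mul_div, ← h7, mul_div_cancel_right₀ _ (hm j)]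

/-- **PAR** -/
theorem parStmt : ParStmt := by
  intro J _ _ io _ _ A _ T d ν j₁ K _ _ _ f hL E _ _ y hy
  choose i hi using hy.1
  have h0 : ∀ j, f j (i j) ≠ 0 := fun j h => hi j (by
    simpa [pv] using hy.2 (MvPolynomial.X ⟨j, i j⟩) _ (MvPolynomial.isWeightedHomogeneous_X ℂ _ _)
      (by simpa [pf] using h))
  have h0' : ∀ j, algebraMap K[X] (RatFunc K) (f j (i j)) ≠ 0 := fun j =>
    RatFunc.algebraMap_ne_zero (h0 j)
  let W : Vr io → RatFunc K := fun v =>
    algebraMap K[X] (RatFunc K) (f v.1 v.2) / algebraMap K[X] (RatFunc K) (f v.1 (i v.1))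
  let w : Vr io → E := fun v => y v.1 v.2 / y v.1 (i v.1)
  let z : {v : Vr io // ν v.1 ≠ 0} → K := fun t =>
    (f t.1.1 t.1.2).coeff 0 / (f t.1.1 (i t.1.1)).coeff 0
  have h1 : ∀ P : MvPolynomial (Vr io) ℂ, MvPolynomial.aeval W P = 0 →
      MvPolynomial.aeval w P = 0 := fun P hP => by
    obtain ⟨q, κ, h1, h2⟩ := EndsZ.hmg i id P
    have h3 := h2 (RatFunc K) (fun j s => algebraMap K[X] (RatFunc K) (f j s)) W
      fun t => (mul_div_cancel₀ _ (h0' _)).symm
    rw [hP, mul_zero] at h3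
    have h4 : pf f q = 0 := (map_eq_zero_iff _ (RatFunc.algebraMap_injective K)).1
      ((MvPolynomial.aeval_algebraMap_apply (RatFunc K) _ q).symm.trans h3)
    exact (mul_eq_zero.1 ((h2 E y w fun t => (mul_div_cancel₀ _ (hi _)).symm).symm.trans
      (hy.2 q κ h1 h4))).resolve_left (Finset.prod_ne_zero_iff.2 fun j _ => pow_ne_zero _ (hi j))
  have h2 : ∀ j s, ν j ≠ 0 → f j s = C ((f j s).coeff 0) := fun j s hj =>
    eq_C_of_natDegree_le_zero (hL.zero j hj ▸ hL.cp.1 j s)
  have h3 : ∀ t, W t.1 = algebraMap K (RatFunc K) (z t) := fun t =>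
    (congrArg₂ (algebraMap K[X] (RatFunc K) · / algebraMap K[X] (RatFunc K) ·) (h2 _ _ t.2)
      (h2 _ _ t.2)).trans (map_div₀ (algebraMap K (RatFunc K)) _ _).symm
  have h4 : ∀ P : MvPolynomial _ ℂ, MvPolynomial.aeval z P = 0 →
      MvPolynomial.aeval (fun t : {v : Vr io // ν v.1 ≠ 0} => w t.1) P = 0 := fun P hP =>
    (MvPolynomial.aeval_rename Subtype.val w P).symm.trans (h1 _ (by
      rw [MvPolynomial.aeval_rename, show W ∘ Subtype.val = _ ∘ z from _root_.funext h3,
        MvPolynomial.aeval_algebraMap_apply, hP, map_zero]))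
  have h5 : adjoin ℂ (range z) = ⊤ := (bas_eq (y := fun j s => (f j s).coeff 0) fun j hj h =>
    h0 j (by rw [h2 _ _ hj, h, map_zero])).symm.trans hL.gen
  rw [bas_eq fun j _ => hi j, ← hL.dm]
  have := essFT_adjoin' (Set.finite_range fun t : {v : Vr io // ν v.1 ≠ 0} => w t.1)
  refine ⟨?_, fun h6 => ?_⟩
  · have h6 := EndsZ.trdeg_le_of_rel h4
    rwa [trdeg_eq_dim, trdeg_eq_dim, Nat.cast_le] at h6
  · obtain ⟨β, h7⟩ := exists_hom h4 h5 (trdeg_eq_dim (k := ℂ) (F := K) ▸ Cardinal.natCast_lt_aleph0)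
      (by rwa [trdeg_eq_dim, trdeg_eq_dim, Nat.cast_le])
    letI := β.toRingHom.toAlgebra
    haveI : IsScalarTower ℂ K E := IsScalarTower.of_algebraMap_eq fun c => (β.commutes c).symm
    obtain ⟨t, c, h8, h9⟩ := par_of_rel hL.cp hL.one h0
      (rel_ext Subtype.val h5 h3 (fun t => (h7 t).symm) h1)
    exact ⟨β, t, fun j => y j (i j) * c j, fun j => mul_ne_zero (hi j) (h8 j), fun j s =>
      (mul_div_cancel₀ _ (hi j)).symm.trans (by rw [mul_assoc]; exact congrArg _ (h9 j s))⟩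

end Crest.Agent.X262.NumPar
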